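import Crest.Agent.GAD.Step0
import Crest.Agent.GAD.Count67

/-!
helper67 — row 341, WP-A rows A3b (`count_bound`) and A3a (`sEig_gram_nonneg`, `sum_sEig_gram`,
`sEig_res_bounds`, `sEig_res_antitoneOn`) of the driver's skeleton
`origin/helper82:tools/gad/AD4Skeleton.lean`, stated with the skeleton's total sorted-eigenvalue
function `sEig` (re-declared here as `Count67B.sEig`, so that this file depends only on
`GAD/Step0.lean` and `GAD/Count67.lean`) and `step0Res` (`GAD/Step0.lean`).
Namespace `Crest.Agent.GAD.Count67B` (no clash with the canonical names).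
-/

set_option autoImplicit false
set_option linter.unusedSectionVars false

open MeasureTheory Set Finset Matrix
open scoped ComplexOrder ENNReal

namespace Crest.Agent.GAD.Count67B

open Crest.Agent.GAD.Count67

/-- Sorted eigenvalues (Mathlib's antitone `eigenvalues₀`) of a matrix; `0` if it is not
Hermitian (the skeleton's `sEig`). -/
noncomputable def sEig {n : Type*} [Fintype n] [DecidableEq n] (A : Matrix n n ℂ)
    (j : Fin (Fintype.card n)) : ℝ :=
  if h : A.IsHermitian then h.eigenvalues₀ j else 0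

theorem sEig_eq {n : Type*} [Fintype n] [DecidableEq n] {A : Matrix n n ℂ} (h : A.IsHermitian) :
    sEig A = h.eigenvalues₀ := by
  funext j
  unfold sEig
  rw [dif_pos h]

variable {d r : Type*} [Fintype d] [DecidableEq d] [Fintype r] [DecidableEq r]

theorem step0Res_eq_A0 (a : Matrix d r ℂ) (T : Matrix d d ℂ) (s : ℝ) :
    step0Res a T s = A0 a T s := rfl

theorem sEig_res_eq (a : Matrix d r ℂ) {T : Matrix d d ℂ} (hT : T.PosSemidef) (s : ℝ) :
    sEig (step0Res a T s) = (isHermitian_A0 a hT.isHermitian s).eigenvalues₀ :=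
  sEig_eq (isHermitian_A0 a hT.isHermitian s)

/-- A3a. -/
theorem sEig_gram_nonneg (a : Matrix d r ℂ) (j : Fin (Fintype.card r)) : 0 ≤ sEig (aᴴ * a) j := by
  rw [sEig_eq (isHermitian_conjTranspose_mul_self a), eigenvalues₀_eq_eigenvalues]
  exact (posSemidef_conjTranspose_mul_self a).eigenvalues_nonneg _

/-- A3a. -/
theorem sum_sEig_gram (a : Matrix d r ℂ) : ∑ j, sEig (aᴴ * a) j = (a * aᴴ).trace.re := by
  have hH := isHermitian_conjTranspose_mul_self a
  have h2 : (aᴴ * a).trace.re = ∑ i, hH.eigenvalues i := by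
    rw [hH.trace_eq_sum_eigenvalues]
    simp
  rw [sEig_eq hH, Matrix.trace_mul_comm a aᴴ, h2]
  unfold Matrix.IsHermitian.eigenvalues
  exact (Equiv.sum_comp (Fintype.equivOfCardEq (Fintype.card_fin _)).symm
    (fun k => hH.eigenvalues₀ k)).symm

/-- A3a. -/
theorem sEig_res_bounds (a : Matrix d r ℂ) {T : Matrix d d ℂ} (hT : T.PosSemidef)
    (j : Fin (Fintype.card r)) {s : ℝ} (hs : 0 < s) :
    0 ≤ sEig (step0Res a T s) j ∧ sEig (step0Res a T s) j ≤ sEig (aᴴ * a) j / s := by
  rw [sEig_res_eq a hT s, sEig_eq (isHermitian_conjTranspose_mul_self a)]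
  exact ⟨eigenvalues₀_A0_nonneg a hT hs j, eigenvalues₀_A0_le a hT hs j⟩

/-- A3a. -/
theorem sEig_res_antitoneOn (a : Matrix d r ℂ) {T : Matrix d d ℂ} (hT : T.PosSemidef)
    (j : Fin (Fintype.card r)) :
    AntitoneOn (fun s : ℝ => sEig (step0Res a T s) j) (Set.Ioi 0) := by
  have h : (fun s : ℝ => sEig (step0Res a T s) j)
      = fun s : ℝ => (isHermitian_A0 a hT.isHermitian s).eigenvalues₀ j := by
    funext s
    rw [sEig_res_eq a hT s]
  rw [h]
  exact antitoneOn_eigenvalues₀_A0 a hT j

/-- **A3b: the counting bound** (one-sided inertia + `tr H₊ ≥ (tr H)₊`), skeleton text. -/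
theorem count_bound (a : Matrix d r ℂ) {T : Matrix d d ℂ} (hT : T.PosSemidef) {u : ℝ}
    (hu : 0 < u) :
    ENNReal.ofReal ((a * aᴴ).trace.re / u - T.trace.re)
      ≤ ∫⁻ s in Set.Ioi (0:ℝ),
          ((Finset.univ.filter fun j => u < sEig (step0Res a T s) j).card : ℝ≥0∞) := by
  simp_rw [sEig_res_eq a hT]
  exact ofReal_le_lintegral_card_A0 a hT hu

end Crest.Agent.GAD.Count67B
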