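import Mathlib
import Crest.Prelude.Def_QState
import Crest.Agent.GAD.LogDetRep

/-!
# Step (0) of the (AD4) proof: the matrix determinant lemma and the log-det representation of `Ψ4`

For `a b : Matrix d d' ℂ` and PSD `T0 T1 : Matrix d d ℂ` let
`O4 = [[a a* + T0, a b*],[b a*, b b* + T1]]` (indexed by `d ⊕ d`). Then for `s > 0`
`det (O4 + s) = det (T0 + s) det (T1 + s) det (1 + a*(T0+s)⁻¹a + b*(T1+s)⁻¹b)` and
`S(O4) - S(a a*) - S(b b*) - S(T0) - S(T1)` is represented (in the sense of `LogDetRep`, with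
`n = 0`, `t = 0`) by
`s ↦ ln det (1 + a*(T0+s)⁻¹a + b*(T1+s)⁻¹b) - ln det (1 + a*a/s) - ln det (1 + b*b/s)`.
-/

set_option autoImplicit false
set_option linter.unusedSectionVars false

open Crest.Quantum
open scoped ComplexOrder Matrix
open Filter Topology MeasureTheory

namespace Crest.Agent.GAD.Psi4Rep

variable {d d' : Type*} [Fintype d] [DecidableEq d] [Fintype d'] [DecidableEq d']

/-- The 4-piece matrix `[[a a* + T0, a b*],[b a*, b b* + T1]]`. -/
noncomputable def O4 (a b : Matrix d d' ℂ) (T0 T1 : Matrix d d ℂ) : Matrix (d ⊕ d) (d ⊕ d) ℂ :=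
  Matrix.fromBlocks (a * aᴴ + T0) (a * bᴴ) (b * aᴴ) (b * bᴴ + T1)

/-- The resolvent compression `a* (T + s)⁻¹ a`. -/
noncomputable def resolv (T : Matrix d d ℂ) (a : Matrix d d' ℂ) (s : ℝ) : Matrix d' d' ℂ :=
  aᴴ * (T + (s : ℂ) • (1 : Matrix d d ℂ))⁻¹ * a

theorem O4_eq (a b : Matrix d d' ℂ) (T0 T1 : Matrix d d ℂ) :
    O4 a b T0 T1 = Matrix.fromBlocks T0 0 0 T1 + Matrix.fromRows a b * (Matrix.fromRows a b)ᴴ := by
  rw [O4, Matrix.conjTranspose_fromRows_eq_fromCols_conjTranspose, Matrix.fromRows_mul_fromCols,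
    Matrix.fromBlocks_add]
  simp [add_comm]

theorem posSemidef_fromBlocks_diag {T0 T1 : Matrix d d ℂ} (h0 : T0.PosSemidef)
    (h1 : T1.PosSemidef) : (Matrix.fromBlocks T0 0 0 T1).PosSemidef := by
  refine .of_dotProduct_mulVec_nonneg (Matrix.IsHermitian.fromBlocks h0.1 (by simp) h1.1)
    fun x => ?_
  have h := add_nonneg (h0.dotProduct_mulVec_nonneg (x ∘ Sum.inl))
    (h1.dotProduct_mulVec_nonneg (x ∘ Sum.inr))
  rw [Matrix.fromBlocks_mulVec]
  simpa [dotProduct, Fintype.sum_sum_type] using h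

theorem O4_posSemidef (a b : Matrix d d' ℂ) {T0 T1 : Matrix d d ℂ} (h0 : T0.PosSemidef)
    (h1 : T1.PosSemidef) : (O4 a b T0 T1).PosSemidef := by
  rw [O4_eq]
  exact (posSemidef_fromBlocks_diag h0 h1).add (Matrix.posSemidef_self_mul_conjTranspose _)

/-- `det (T + s) ≠ 0` for PSD `T` and `s > 0`. -/
theorem det_add_smul_one_ne_zero {T : Matrix d d ℂ} (hT : T.PosSemidef) {s : ℝ} (hs : 0 < s) :
    (T + (s : ℂ) • (1 : Matrix d d ℂ)).det ≠ 0 := by
  intro h
  have := ld_det_add_smul_one_re_pos T hT hs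
  rw [h] at this
  simp at this

/-- **Matrix determinant lemma** for the 4-piece matrix. -/
theorem det_O4_add (a b : Matrix d d' ℂ) {T0 T1 : Matrix d d ℂ} (h0 : T0.PosSemidef)
    (h1 : T1.PosSemidef) {s : ℝ} (hs : 0 < s) :
    (O4 a b T0 T1 + (s : ℂ) • (1 : Matrix (d ⊕ d) (d ⊕ d) ℂ)).det
      = (T0 + (s : ℂ) • (1 : Matrix d d ℂ)).det * (T1 + (s : ℂ) • (1 : Matrix d d ℂ)).det
        * (1 + resolv T0 a s + resolv T1 b s).det := by
  set P0 : Matrix d d ℂ := T0 + (s : ℂ) • (1 : Matrix d d ℂ) with hP0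
  set P1 : Matrix d d ℂ := T1 + (s : ℂ) • (1 : Matrix d d ℂ) with hP1
  have hu0 : IsUnit P0.det := isUnit_iff_ne_zero.mpr (det_add_smul_one_ne_zero h0 hs)
  have hu1 : IsUnit P1.det := isUnit_iff_ne_zero.mpr (det_add_smul_one_ne_zero h1 hs)
  set D : Matrix (d ⊕ d) (d ⊕ d) ℂ := Matrix.fromBlocks P0 0 0 P1 with hD
  have hDdet : D.det = P0.det * P1.det := by
    rw [hD, Matrix.det_fromBlocks_zero₂₁]
  have hDinv : D⁻¹ = Matrix.fromBlocks P0⁻¹ 0 0 P1⁻¹ := by
    refine Matrix.inv_eq_right_inv ?_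
    rw [hD, Matrix.fromBlocks_multiply]
    simp [Matrix.mul_nonsing_inv _ hu0, Matrix.mul_nonsing_inv _ hu1, Matrix.fromBlocks_one]
  have hsum : O4 a b T0 T1 + (s : ℂ) • (1 : Matrix (d ⊕ d) (d ⊕ d) ℂ)
      = D + Matrix.fromRows a b * (Matrix.fromRows a b)ᴴ := by
    have e1 : Matrix.fromBlocks (T0 + (s : ℂ) • (1 : Matrix d d ℂ)) 0 0
        (T1 + (s : ℂ) • (1 : Matrix d d ℂ))
        = Matrix.fromBlocks T0 0 0 T1 + (s : ℂ) • (1 : Matrix (d ⊕ d) (d ⊕ d) ℂ) := by
      rw [← Matrix.fromBlocks_one, Matrix.fromBlocks_smul, Matrix.fromBlocks_add]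
      simp
    rw [O4_eq, hD, hP0, hP1, e1]
    abel
  rw [hsum, Matrix.det_add_mul _ _ (by rw [hDdet]; exact hu0.mul hu1), hDdet, hDinv]
  congr 2
  rw [Matrix.conjTranspose_fromRows_eq_fromCols_conjTranspose, Matrix.fromCols_mul_fromBlocks,
    Matrix.fromCols_mul_fromRows]
  show _ = 1 + aᴴ * P0⁻¹ * a + bᴴ * P1⁻¹ * b
  simp only [Matrix.mul_zero, add_zero, zero_add, add_assoc]

/-- `det (a a* + s) = s ^ |d| * det (1 + a* a / s)`. -/
theorem det_mul_conjTranspose_add (a : Matrix d d' ℂ) {s : ℝ} (hs : 0 < s) :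
    (a * aᴴ + (s : ℂ) • (1 : Matrix d d ℂ)).det
      = (s : ℂ) ^ Fintype.card d * (1 + ((s : ℂ)⁻¹) • (aᴴ * a)).det := by
  have hs' : (s : ℂ) ≠ 0 := by exact_mod_cast hs.ne'
  have h1 : a * aᴴ + (s : ℂ) • (1 : Matrix d d ℂ)
      = (s : ℂ) • (1 + (((s : ℂ)⁻¹) • a) * aᴴ) := by
    rw [smul_add, Matrix.smul_mul, smul_smul, mul_inv_cancel₀ hs', one_smul, add_comm]
  rw [h1, Matrix.det_smul, Matrix.det_one_add_mul_comm, Matrix.mul_smul]

/-- `det (A + s)` is (the coercion of) a real number, for Hermitian `A`. -/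
theorem det_add_smul_one_eq_ofReal_re {A : Matrix d d ℂ} (hA : A.IsHermitian) (s : ℝ) :
    (A + (s : ℂ) • (1 : Matrix d d ℂ)).det
      = (((A + (s : ℂ) • (1 : Matrix d d ℂ)).det.re : ℝ) : ℂ) := by
  rw [ld_det_add_smul_one A hA s, Complex.ofReal_re]

/-- The integrand of the log-det representation of `Ψ4`. -/
noncomputable def psi4Integrand (a b : Matrix d d' ℂ) (T0 T1 : Matrix d d ℂ) (s : ℝ) : ℝ :=
  Real.log ((1 + resolv T0 a s + resolv T1 b s).det.re)
    - Real.log ((1 + ((s : ℂ)⁻¹) • (aᴴ * a)).det.re)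
    - Real.log ((1 + ((s : ℂ)⁻¹) • (bᴴ * b)).det.re)

/-- `det (1 + a*(T0+s)⁻¹a + b*(T1+s)⁻¹b)` is real and equals
`det (O4 + s) / (det (T0 + s) det (T1 + s))`. -/
theorem det_one_add_resolv_re (a b : Matrix d d' ℂ) {T0 T1 : Matrix d d ℂ} (h0 : T0.PosSemidef)
    (h1 : T1.PosSemidef) {s : ℝ} (hs : 0 < s) :
    (1 + resolv T0 a s + resolv T1 b s).det.re
      = (O4 a b T0 T1 + (s : ℂ) • (1 : Matrix (d ⊕ d) (d ⊕ d) ℂ)).det.re
        / ((T0 + (s : ℂ) • (1 : Matrix d d ℂ)).det.re * (T1 + (s : ℂ) • (1 : Matrix d d ℂ)).det.re) := by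
  have hO := det_add_smul_one_eq_ofReal_re (O4_posSemidef a b h0 h1).1 s
  have e0 := det_add_smul_one_eq_ofReal_re h0.1 s
  have e1 := det_add_smul_one_eq_ofReal_re h1.1 s
  have p0 := ld_det_add_smul_one_re_pos T0 h0 hs
  have p1 := ld_det_add_smul_one_re_pos T1 h1 hs
  have hm := det_O4_add a b h0 h1 hs
  rw [hO, e0, e1] at hm
  set rO := (O4 a b T0 T1 + (s : ℂ) • (1 : Matrix (d ⊕ d) (d ⊕ d) ℂ)).det.re
  set r0 := (T0 + (s : ℂ) • (1 : Matrix d d ℂ)).det.re
  set r1 := (T1 + (s : ℂ) • (1 : Matrix d d ℂ)).det.re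
  have hz : (1 + resolv T0 a s + resolv T1 b s).det = ((rO / (r0 * r1) : ℝ) : ℂ) := by
    have hne : ((r0 : ℂ) * (r1 : ℂ)) ≠ 0 := by
      refine mul_ne_zero ?_ ?_ <;> exact_mod_cast (by positivity : (0:ℝ) < _).ne'
    push_cast
    rw [eq_div_iff hne, mul_comm]
    exact hm.symm
  rw [hz, Complex.ofReal_re]

/-- `det (1 + a* a / s)` is real and equals `det (a a* + s) / s ^ |d|`. -/
theorem det_one_add_smul_re (a : Matrix d d' ℂ) {s : ℝ} (hs : 0 < s) :
    (1 + ((s : ℂ)⁻¹) • (aᴴ * a)).det.re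
      = (a * aᴴ + (s : ℂ) • (1 : Matrix d d ℂ)).det.re / s ^ Fintype.card d := by
  have hX := det_add_smul_one_eq_ofReal_re (Matrix.posSemidef_self_mul_conjTranspose a).1 s
  have hm := det_mul_conjTranspose_add a hs
  rw [hX] at hm
  set rX := (a * aᴴ + (s : ℂ) • (1 : Matrix d d ℂ)).det.re
  have hz : (1 + ((s : ℂ)⁻¹) • (aᴴ * a)).det = ((rX / s ^ Fintype.card d : ℝ) : ℂ) := by
    have hne : ((s : ℂ) ^ Fintype.card d) ≠ 0 := pow_ne_zero _ (by exact_mod_cast hs.ne')
    push_cast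
    rw [eq_div_iff hne, mul_comm]
    exact hm.symm
  rw [hz, Complex.ofReal_re]

/-- **Log-det representation of `Ψ4`** (step (0) of the (AD4) proof). -/
theorem psi4_logDetRep (a b : Matrix d d' ℂ) {T0 T1 : Matrix d d ℂ} (h0 : T0.PosSemidef)
    (h1 : T1.PosSemidef) :
    LogDetRep (vnEntropy (O4 a b T0 T1) - vnEntropy (a * aᴴ) - vnEntropy (b * bᴴ)
        - vnEntropy T0 - vnEntropy T1) 0 0 (psi4Integrand a b T0 T1) := by
  have hOp := O4_posSemidef a b h0 h1
  have hXp : (a * aᴴ).PosSemidef := Matrix.posSemidef_self_mul_conjTranspose a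
  have hUp : (b * bᴴ).PosSemidef := Matrix.posSemidef_self_mul_conjTranspose b
  have hO := logDetRep_vnEntropy (O4 a b T0 T1) hOp
  have hX := logDetRep_vnEntropy (a * aᴴ) hXp
  have hU := logDetRep_vnEntropy (b * bᴴ) hUp
  have hT0 := logDetRep_vnEntropy T0 h0
  have hT1 := logDetRep_vnEntropy T1 h1
  have hlog := logDetRep_log.const_mul (2 * (Fintype.card d : ℝ))
  have hall := ((((hO.sub hX).sub hU).sub hT0).sub hT1).add hlog
  refine hall.congr (by ring) ?_ ?_ (fun s hs => ?_)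
  · simp only [Fintype.card_sum]; push_cast; ring
  · have htr : (O4 a b T0 T1).trace = (a * aᴴ).trace + T0.trace + ((b * bᴴ).trace + T1.trace) := by
      simp [O4, Matrix.trace, Fintype.sum_sum_type, Finset.sum_add_distrib]
    rw [htr]; simp only [Complex.add_re]; ring
  · have pO := ld_det_add_smul_one_re_pos _ hOp hs
    have pX := ld_det_add_smul_one_re_pos _ hXp hs
    have pU := ld_det_add_smul_one_re_pos _ hUp hs
    have p0 := ld_det_add_smul_one_re_pos T0 h0 hs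
    have p1 := ld_det_add_smul_one_re_pos T1 h1 hs
    have hsc : (0:ℝ) < s ^ Fintype.card d := pow_pos hs _
    rw [psi4Integrand, det_one_add_resolv_re a b h0 h1 hs, det_one_add_smul_re a hs,
      det_one_add_smul_re b hs, Real.log_div pO.ne' (mul_pos p0 p1).ne',
      Real.log_mul p0.ne' p1.ne', Real.log_div pX.ne' hsc.ne', Real.log_div pU.ne' hsc.ne',
      Real.log_pow]
    ring

/-- A number represented (with `n = 0`, `t = 0`) by `f` is at most the lower integral of the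
positive part of `f` over `(0, ∞)`; no sign or integrability condition on `f` at infinity. -/
theorem logDetRep_ofReal_le_lintegral {S : ℝ} {f : ℝ → ℝ} (h : LogDetRep S 0 0 f) :
    ENNReal.ofReal S ≤ ∫⁻ s in Set.Ioi (0:ℝ), ENNReal.ofReal (f s) := by
  have key : ∀ L : ℝ, 0 ≤ L →
      ENNReal.ofReal (∫ s in (0:ℝ)..L, f s) ≤ ∫⁻ s in Set.Ioi (0:ℝ), ENNReal.ofReal (f s) := by
    intro L hL
    rw [intervalIntegral.integral_of_le hL]
    have hint : IntegrableOn f (Set.Ioc 0 L) volume :=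
      (intervalIntegrable_iff_integrableOn_Ioc_of_le hL).mp (h.integrable L hL)
    have hpos : IntegrableOn (fun s => max (f s) 0) (Set.Ioc 0 L) volume := hint.pos_part
    calc ENNReal.ofReal (∫ s in Set.Ioc 0 L, f s)
        ≤ ENNReal.ofReal (∫ s in Set.Ioc 0 L, max (f s) 0) :=
          ENNReal.ofReal_le_ofReal (MeasureTheory.integral_mono hint hpos (fun s => le_max_left _ _))
      _ = ∫⁻ s in Set.Ioc 0 L, ENNReal.ofReal (max (f s) 0) :=
          MeasureTheory.ofReal_integral_eq_lintegral_ofReal hpos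
            (Filter.Eventually.of_forall (fun s => le_max_right _ _))
      _ = ∫⁻ s in Set.Ioc 0 L, ENNReal.ofReal (f s) := by
          refine MeasureTheory.lintegral_congr (fun s => ?_)
          rcases le_total (f s) 0 with h0 | h0
          · rw [max_eq_right h0, ENNReal.ofReal_zero, ENNReal.ofReal_of_nonpos h0]
          · rw [max_eq_left h0]
      _ ≤ ∫⁻ s in Set.Ioi (0:ℝ), ENNReal.ofReal (f s) :=
          MeasureTheory.lintegral_mono_set Set.Ioc_subset_Ioi_self
  have ht : Tendsto (fun L : ℝ => ENNReal.ofReal (∫ s in (0:ℝ)..L, f s)) atTop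
      (𝓝 (ENNReal.ofReal S)) :=
    (ENNReal.continuous_ofReal.tendsto S).comp h.tendsto_integral
  refine le_of_tendsto ht ?_
  filter_upwards [eventually_ge_atTop (0:ℝ)] with L hL
  exact key L hL

/-- **(P3)** `S(X) + S(U) + S(T0) + S(T1) - S(O4)` is at most the lower integral of the
(positive part of the) exact log-det integrand. -/
theorem ofReal_neg_psi4_le_lintegral (a b : Matrix d d' ℂ) {T0 T1 : Matrix d d ℂ}
    (h0 : T0.PosSemidef) (h1 : T1.PosSemidef) :
    ENNReal.ofReal (vnEntropy (a * aᴴ) + vnEntropy (b * bᴴ) + vnEntropy T0 + vnEntropy T1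
        - vnEntropy (O4 a b T0 T1))
      ≤ ∫⁻ s in Set.Ioi (0:ℝ), ENNReal.ofReal (-psi4Integrand a b T0 T1 s) := by
  have h := (psi4_logDetRep a b h0 h1).neg
  have h' : LogDetRep (vnEntropy (a * aᴴ) + vnEntropy (b * bᴴ) + vnEntropy T0 + vnEntropy T1
        - vnEntropy (O4 a b T0 T1)) 0 0 (fun s => -psi4Integrand a b T0 T1 s) :=
    h.congr (by ring) (by ring) (by ring) (fun s _ => rfl)
  exact logDetRep_ofReal_le_lintegral h'

/-- A number represented (with `n = 0`, `t = 0`) by an integrand that is nonnegative on `s > 0`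
equals the lower integral of the integrand over `(0, ∞)`. -/
theorem logDetRep_ofReal_eq_lintegral {S : ℝ} {f : ℝ → ℝ} (h : LogDetRep S 0 0 f)
    (hf : ∀ s : ℝ, 0 < s → 0 ≤ f s) :
    ENNReal.ofReal S = ∫⁻ s in Set.Ioi (0:ℝ), ENNReal.ofReal (f s) := by
  have hint := h.integrableOn_Ioi_of_nonneg hf
  rw [h.eq_integral_Ioi hint]
  exact MeasureTheory.ofReal_integral_eq_lintegral_ofReal hint
    ((ae_restrict_mem measurableSet_Ioi).mono (fun s hs => hf s hs))

/-- `log det (1 + a* a / s) = ∑ log (1 + x_i / s)`, `x_i` the eigenvalues of `a a*`. -/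
theorem log_det_one_add_smul (a : Matrix d d' ℂ) {s : ℝ} (hs : 0 < s) :
    Real.log ((1 + ((s : ℂ)⁻¹) • (aᴴ * a)).det.re)
      = ∑ i, Real.log (1 + (Matrix.posSemidef_self_mul_conjTranspose a).1.eigenvalues i / s) := by
  have hXp : (a * aᴴ).PosSemidef := Matrix.posSemidef_self_mul_conjTranspose a
  have pX := ld_det_add_smul_one_re_pos _ hXp hs
  have hsc : (0:ℝ) < s ^ Fintype.card d := pow_pos hs _
  rw [det_one_add_smul_re a hs, Real.log_div pX.ne' hsc.ne', ld_log_det_add_smul_one _ hXp hs,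
    Real.log_pow, ← Finset.card_univ, ← nsmul_eq_mul, ← Finset.sum_const, ← Finset.sum_sub_distrib]
  refine Finset.sum_congr rfl (fun i _ => ?_)
  have hnn := hXp.eigenvalues_nonneg i
  have h1 : 1 + hXp.1.eigenvalues i / s = (hXp.1.eigenvalues i + s) / s := by
    field_simp; ring
  rw [h1, Real.log_div (by positivity) hs.ne']

/-! ### The scalar (`d = d' = Unit`) instance -/

/-- A `1 × 1` matrix. -/
noncomputable def one1 (m : ℝ) : Matrix Unit Unit ℂ := Matrix.of fun _ _ => (m : ℂ)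

theorem one1_posSemidef {m : ℝ} (hm : 0 ≤ m) : (one1 m).PosSemidef := by
  have : one1 m = (one1 (Real.sqrt m))ᴴ * one1 (Real.sqrt m) := by
    ext i j
    simp only [one1, Matrix.mul_apply, Matrix.conjTranspose_apply, Matrix.of_apply,
      Finset.univ_unique, Finset.sum_singleton, Complex.star_def, Complex.conj_ofReal]
    rw [← Complex.ofReal_mul, Real.mul_self_sqrt hm]
  rw [this]
  exact Matrix.posSemidef_conjTranspose_mul_self _

theorem one1_mul_conjTranspose (m : ℝ) (hm : 0 ≤ m) :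
    one1 (Real.sqrt m) * (one1 (Real.sqrt m))ᴴ = one1 m := by
  ext i j
  simp only [one1, Matrix.mul_apply, Matrix.conjTranspose_apply, Matrix.of_apply,
    Finset.univ_unique, Finset.sum_singleton, Complex.star_def, Complex.conj_ofReal]
  rw [← Complex.ofReal_mul, Real.mul_self_sqrt hm]

theorem one1_det_add (m s : ℝ) :
    (one1 m + (s : ℂ) • (1 : Matrix Unit Unit ℂ)).det = ((m + s : ℝ) : ℂ) := by
  rw [Matrix.det_unique]
  simp [one1]

theorem vnEntropy_one1 (m : ℝ) : vnEntropy (one1 m) = Real.negMulLog m := by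
  have h : one1 m = Matrix.diagonal fun _ : Unit => (m : ℂ) := by
    ext i j
    simp [one1, Matrix.diagonal]
  have hH : (one1 m).IsHermitian := by
    rw [h]
    refine Matrix.isHermitian_diagonal_iff.2 fun i => ?_
    simp [isSelfAdjoint_iff]
  have hchar : (one1 m).charpoly = Polynomial.X - Polynomial.C (m : ℂ) := by
    rw [h, Matrix.charpoly_diagonal]; simp
  have hev : hH.eigenvalues () = m := by
    have h1 := hH.charpoly_eq
    rw [hchar] at h1
    simp only [Finset.univ_unique, Finset.prod_singleton] at h1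
    have h2 := congrArg (Polynomial.eval 0) h1
    simp at h2
    exact_mod_cast h2.symm
  rw [ld_vnEntropy_eq_sum _ hH]
  simp [hev, Real.negMulLog]

/-- The scalar model of the 4-path: `[[x + w0, √(xy)],[√(xy), y + w1]]` on `Unit ⊕ Unit`. -/
theorem O4_scalar (x y w0 w1 : ℝ) (hx : 0 ≤ x) (hy : 0 ≤ y) :
    O4 (one1 (Real.sqrt x)) (one1 (Real.sqrt y)) (one1 w0) (one1 w1)
      = Matrix.fromBlocks (Matrix.of fun _ _ => ((x + w0 : ℝ) : ℂ))
          (Matrix.of fun _ _ => ((Real.sqrt (x * y) : ℝ) : ℂ))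
          (Matrix.of fun _ _ => ((Real.sqrt (x * y) : ℝ) : ℂ))
          (Matrix.of fun _ _ => ((y + w1 : ℝ) : ℂ)) := by
  have hxy : Real.sqrt (x * y) = Real.sqrt x * Real.sqrt y := Real.sqrt_mul hx y
  have hyx : Real.sqrt (x * y) = Real.sqrt y * Real.sqrt x := by rw [hxy, mul_comm]
  rw [O4, one1_mul_conjTranspose x hx, one1_mul_conjTranspose y hy]
  congr 1
  · ext i j; simp [one1]
  · ext i j
    simp only [one1, Matrix.mul_apply, Matrix.conjTranspose_apply, Matrix.of_apply,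
      Finset.univ_unique, Finset.sum_singleton, Complex.star_def, Complex.conj_ofReal]
    rw [← Complex.ofReal_mul, hxy]
  · ext i j
    simp only [one1, Matrix.mul_apply, Matrix.conjTranspose_apply, Matrix.of_apply,
      Finset.univ_unique, Finset.sum_singleton, Complex.star_def, Complex.conj_ofReal]
    rw [← Complex.ofReal_mul, hyx]
  · ext i j; simp [one1]

theorem one1_inv {m : ℝ} (hm : m ≠ 0) : (one1 m)⁻¹ = one1 m⁻¹ := by
  refine Matrix.inv_eq_right_inv ?_
  ext i j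
  have hm' : (m : ℂ) ≠ 0 := by exact_mod_cast hm
  simp [one1, Matrix.mul_apply, hm']

theorem one1_add_smul (m s : ℝ) :
    one1 m + (s : ℂ) • (1 : Matrix Unit Unit ℂ) = one1 (m + s) := by
  ext i j
  simp [one1]

theorem resolv_one1 (w x s : ℝ) (hx : 0 ≤ x) (hws : w + s ≠ 0) :
    resolv (one1 w) (one1 (Real.sqrt x)) s = one1 (x / (w + s)) := by
  rw [resolv, one1_add_smul, one1_inv hws]
  ext i j
  simp only [one1, Matrix.mul_apply, Matrix.conjTranspose_apply, Matrix.of_apply,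
    Finset.univ_unique, Finset.sum_singleton, Complex.star_def, Complex.conj_ofReal]
  rw [← Complex.ofReal_mul, ← Complex.ofReal_mul]
  congr 1
  rw [mul_comm (Real.sqrt x) _, mul_assoc, Real.mul_self_sqrt hx]
  field_simp

/-- The exact integrand for the scalar data. -/
theorem psi4Integrand_scalar (x y w0 w1 : ℝ) (hx : 0 ≤ x) (hy : 0 ≤ y) (hw0 : 0 ≤ w0)
    (hw1 : 0 ≤ w1) {s : ℝ} (hs : 0 < s) :
    psi4Integrand (one1 (Real.sqrt x)) (one1 (Real.sqrt y)) (one1 w0) (one1 w1) s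
      = Real.log (1 + x / (w0 + s) + y / (w1 + s)) - Real.log (1 + x / s) - Real.log (1 + y / s) := by
  have h0 : w0 + s ≠ 0 := by positivity
  have h1 : w1 + s ≠ 0 := by positivity
  have e1 : (1 + resolv (one1 w0) (one1 (Real.sqrt x)) s
      + resolv (one1 w1) (one1 (Real.sqrt y)) s).det.re = 1 + x / (w0 + s) + y / (w1 + s) := by
    rw [resolv_one1 w0 x s hx h0, resolv_one1 w1 y s hy h1, Matrix.det_unique]
    have : ((1 : Matrix Unit Unit ℂ) + one1 (x / (w0 + s)) + one1 (y / (w1 + s))) default default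
        = ((1 + x / (w0 + s) + y / (w1 + s) : ℝ) : ℂ) := by
      simp [one1]
    rw [this, Complex.ofReal_re]
  have e2 : ∀ z : ℝ, 0 ≤ z →
      (1 + ((s : ℂ)⁻¹) • ((one1 (Real.sqrt z))ᴴ * one1 (Real.sqrt z))).det.re = 1 + z / s := by
    intro z hz
    rw [det_one_add_smul_re _ hs, one1_mul_conjTranspose z hz, one1_det_add, Complex.ofReal_re]
    simp only [Fintype.card_unit, pow_one]
    field_simp
    ring
  rw [psi4Integrand, e1, e2 x hx, e2 y hy]

/-- **Scalar log-det representation** (the `d = 1` skeleton of `Ψ4`). -/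
theorem scalar_logDetRep (x y w0 w1 : ℝ) (hx : 0 ≤ x) (hy : 0 ≤ y) (hw0 : 0 ≤ w0)
    (hw1 : 0 ≤ w1) :
    LogDetRep (vnEntropy (Matrix.fromBlocks (Matrix.of fun (_ _ : Unit) => ((x + w0 : ℝ) : ℂ))
          (Matrix.of fun (_ _ : Unit) => ((Real.sqrt (x * y) : ℝ) : ℂ))
          (Matrix.of fun (_ _ : Unit) => ((Real.sqrt (x * y) : ℝ) : ℂ))
          (Matrix.of fun (_ _ : Unit) => ((y + w1 : ℝ) : ℂ)))
        - Real.negMulLog x - Real.negMulLog y - Real.negMulLog w0 - Real.negMulLog w1) 0 0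
      (fun s => Real.log (1 + x / (w0 + s) + y / (w1 + s)) - Real.log (1 + x / s)
        - Real.log (1 + y / s)) := by
  have h := psi4_logDetRep (one1 (Real.sqrt x)) (one1 (Real.sqrt y)) (one1_posSemidef hw0)
    (one1_posSemidef hw1)
  rw [O4_scalar x y w0 w1 hx hy, one1_mul_conjTranspose x hx, one1_mul_conjTranspose y hy,
    vnEntropy_one1, vnEntropy_one1, vnEntropy_one1, vnEntropy_one1] at h
  exact h.congr rfl rfl rfl (fun s hs => psi4Integrand_scalar x y w0 w1 hx hy hw0 hw1 hs)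

/-- The scalar integrand (with the sign that makes it nonnegative). -/
theorem scalar_integrand_nonneg (x y w0 w1 : ℝ) (hx : 0 ≤ x) (hy : 0 ≤ y) (hw0 : 0 ≤ w0)
    (hw1 : 0 ≤ w1) {s : ℝ} (hs : 0 < s) :
    0 ≤ Real.log (1 + x / s) + Real.log (1 + y / s) - Real.log (1 + x / (w0 + s) + y / (w1 + s)) := by
  have hxs : 0 ≤ x / s := by positivity
  have hys : 0 ≤ y / s := by positivity
  have h1 : 0 < 1 + x / s := by positivity
  have h2 : 0 < 1 + y / s := by positivity
  have h3 : 0 < 1 + x / (w0 + s) + y / (w1 + s) := by positivity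
  have hx' : x / (w0 + s) ≤ x / s := div_le_div_of_nonneg_left hx hs (by linarith)
  have hy' : y / (w1 + s) ≤ y / s := div_le_div_of_nonneg_left hy hs (by linarith)
  rw [← Real.log_mul h1.ne' h2.ne', sub_nonneg]
  refine Real.log_le_log h3 ?_
  nlinarith [mul_nonneg hxs hys]

/-- **Scalar exactness**: `η(x) + η(y) + η(w0) + η(w1) - S(model)` is the lower integral of the
scalar integrand. -/
theorem scalar_ofReal_eq_lintegral (x y w0 w1 : ℝ) (hx : 0 ≤ x) (hy : 0 ≤ y) (hw0 : 0 ≤ w0)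
    (hw1 : 0 ≤ w1) :
    ENNReal.ofReal (Real.negMulLog x + Real.negMulLog y + Real.negMulLog w0 + Real.negMulLog w1
        - vnEntropy (Matrix.fromBlocks (Matrix.of fun (_ _ : Unit) => ((x + w0 : ℝ) : ℂ))
          (Matrix.of fun (_ _ : Unit) => ((Real.sqrt (x * y) : ℝ) : ℂ))
          (Matrix.of fun (_ _ : Unit) => ((Real.sqrt (x * y) : ℝ) : ℂ))
          (Matrix.of fun (_ _ : Unit) => ((y + w1 : ℝ) : ℂ))))
      = ∫⁻ s in Set.Ioi (0:ℝ), ENNReal.ofReal (Real.log (1 + x / s) + Real.log (1 + y / s)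
          - Real.log (1 + x / (w0 + s) + y / (w1 + s))) := by
  have h := (scalar_logDetRep x y w0 w1 hx hy hw0 hw1).neg
  have h' := h.congr (S' := Real.negMulLog x + Real.negMulLog y + Real.negMulLog w0
      + Real.negMulLog w1
        - vnEntropy (Matrix.fromBlocks (Matrix.of fun (_ _ : Unit) => ((x + w0 : ℝ) : ℂ))
          (Matrix.of fun (_ _ : Unit) => ((Real.sqrt (x * y) : ℝ) : ℂ))
          (Matrix.of fun (_ _ : Unit) => ((Real.sqrt (x * y) : ℝ) : ℂ))
          (Matrix.of fun (_ _ : Unit) => ((y + w1 : ℝ) : ℂ))))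
    (n' := 0) (t' := 0)
    (f' := fun s => Real.log (1 + x / s) + Real.log (1 + y / s)
          - Real.log (1 + x / (w0 + s) + y / (w1 + s)))
    (by ring) (by ring) (by ring) (fun s _ => by ring)
  exact logDetRep_ofReal_eq_lintegral h'
    (fun s hs => scalar_integrand_nonneg x y w0 w1 hx hy hw0 hw1 hs)

end Crest.Agent.GAD.Psi4Rep
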