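import Mathlib
import Crest.Agent.GAD.Step0
import Crest.Agent.GAD.Inertia

/-!
# Row 341, WP-A: `ResSpec` (spectral ingredient of the AD4 glue) from `GAD/Inertia.lean`

Adapter: the three facts (R1)-(R3) on the sorted eigenvalues `resEig a T j s` of
`step0Res a T s = aᴴ (T + s)⁻¹ a`, in exactly the shape of helper94's `AD4Glue.ResSpec`
(board #1713).  `gramEig` / `resEig` below have bodies identical to `AD4Glue.gramEig` /
`AD4Glue.resEig`, so `resSpec` closes `AD4Glue.ResSpec` by unfolding.
-/

set_option autoImplicit false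
set_option linter.unusedSectionVars false

open Matrix MeasureTheory
open scoped ComplexOrder ENNReal

namespace Crest.Agent.GAD.ResSpec21

section Defs

variable {d e : Type*} [Fintype d] [DecidableEq d] [Fintype e] [DecidableEq e]

/-- Decreasingly sorted eigenvalues of the Gram matrix `aᴴ a`. -/
noncomputable def gramEig (a : Matrix d e ℂ) : Fin (Fintype.card e) → ℝ :=
  (Matrix.isHermitian_conjTranspose_mul_self a).eigenvalues₀

/-- Decreasingly sorted eigenvalues of `A(s) = aᴴ (T + s)⁻¹ a` (`step0Res`), as functions of `s`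
(junk value `0` if the matrix is not Hermitian). -/
noncomputable def resEig (a : Matrix d e ℂ) (T : Matrix d d ℂ) (j : Fin (Fintype.card e))
    (s : ℝ) : ℝ :=
  if h : (step0Res a T s).IsHermitian then h.eigenvalues₀ j else 0

theorem gramEig_eq_pp (a : Matrix d e ℂ) : gramEig a = Inertia.pp a := rfl

theorem resEig_eq_al (a : Matrix d e ℂ) {T : Matrix d d ℂ} (hT : T.IsHermitian)
    (j : Fin (Fintype.card e)) (s : ℝ) : resEig a T j s = Inertia.al a hT s j := by
  have h : (step0Res a T s).IsHermitian := Inertia.resA_isHermitian a hT s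
  unfold resEig
  rw [dif_pos h]
  rfl

/-- (R1a) antitone in `s` on `(0, ∞)`. -/
theorem resEig_antitoneOn (a : Matrix d e ℂ) {T : Matrix d d ℂ} (hT : T.PosSemidef)
    (j : Fin (Fintype.card e)) : AntitoneOn (resEig a T j) (Set.Ioi 0) := by
  have h := Inertia.al_antitoneOn a hT j
  intro s hs s' hs' hss'
  rw [resEig_eq_al a hT.1, resEig_eq_al a hT.1]
  exact h hs hs' hss'

/-- (R1) a.e.-measurability in `s` on `(0, ∞)`. -/
theorem resEig_aemeasurable (a : Matrix d e ℂ) {T : Matrix d d ℂ} (hT : T.PosSemidef)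
    (j : Fin (Fintype.card e)) :
    AEMeasurable (resEig a T j) (volume.restrict (Set.Ioi 0)) :=
  aemeasurable_restrict_of_antitoneOn measurableSet_Ioi (resEig_antitoneOn a hT j)

/-- (R2) `0 ≤ resEig a T j s ≤ gramEig a j / s`. -/
theorem resEig_bounds (a : Matrix d e ℂ) {T : Matrix d d ℂ} (hT : T.PosSemidef)
    (j : Fin (Fintype.card e)) {s : ℝ} (hs : 0 < s) :
    0 ≤ resEig a T j s ∧ resEig a T j s ≤ gramEig a j / s := by
  rw [resEig_eq_al a hT.1, gramEig_eq_pp]
  refine ⟨Inertia.al_nonneg a hT hs j, ?_⟩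
  -- counting form ⇒ pointwise bound
  have key : ∀ u : ℝ, u < Inertia.al a hT.1 s j → u * s < Inertia.pp a j := by
    intro u hu
    have h1 : (j : ℕ) < Fintype.card {k // u < Inertia.al a hT.1 s k} :=
      (Inertia.lt_card_iff_of_antitone (Inertia.al_antitone a hT.1 s) u j).2 hu
    have h2 := lt_of_lt_of_le h1 (Inertia.card_al_le a hT hs u)
    exact (Inertia.lt_card_iff_of_antitone (Inertia.pp_antitone a) (u * s) j).1 h2
  rw [le_div_iff₀ hs]
  by_contra hlt
  rw [not_le] at hlt
  -- take u = pp j / s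
  have h3 := key (Inertia.pp a j / s) (by rwa [div_lt_iff₀ hs])
  rw [div_mul_cancel₀ _ hs.ne'] at h3
  exact lt_irrefl _ h3

/-- (R3) the one-sided inertia count. -/
theorem resEig_count (a : Matrix d e ℂ) {T : Matrix d d ℂ} (hT : T.PosSemidef)
    {u : ℝ} (hu : 0 < u) :
    ENNReal.ofReal ((a * aᴴ).trace.re / u - T.trace.re)
      ≤ ∫⁻ s in Set.Ioi (0 : ℝ),
          ((Finset.univ.filter fun j => u < resEig a T j s).card : ℝ≥0∞) := by
  refine (Inertia.ofReal_le_lintegral_card_al a hT hu).trans (le_of_eq ?_)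
  refine setLIntegral_congr_fun measurableSet_Ioi fun s _ => ?_
  simp only [resEig_eq_al a hT.1]
  rw [Fintype.card_subtype]

end Defs

/-- **Ingredient RES** in the exact shape of `AD4Glue.ResSpec` (board #1713). -/
theorem resSpec :
    ∀ (d e : Type) [Fintype d] [DecidableEq d] [Fintype e] [DecidableEq e]
      (a : Matrix d e ℂ) (T : Matrix d d ℂ), T.PosSemidef →
      (∀ j, AEMeasurable (resEig a T j) (volume.restrict (Set.Ioi 0))) ∧
      (∀ j s, 0 < s → 0 ≤ resEig a T j s ∧ resEig a T j s ≤ gramEig a j / s) ∧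
      (∀ u, 0 < u → ENNReal.ofReal ((a * aᴴ).trace.re / u - T.trace.re)
          ≤ ∫⁻ s in Set.Ioi (0 : ℝ),
              ((Finset.univ.filter fun j => u < resEig a T j s).card : ℝ≥0∞)) := by
  intro d e _ _ _ _ a T hT
  exact ⟨fun j => resEig_aemeasurable a hT j, fun j s hs => resEig_bounds a hT j hs,
    fun u hu => resEig_count a hT hu⟩

end Crest.Agent.GAD.ResSpec21
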